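import Vale.Agent.P263B14.AlgRow

/-!
# P263, bordism invariance: a Lagrangian relation between two forms forces the same Arf invariant
-/

namespace Vale.Agent.P263C56

open Vale.Agent.P263A Vale.Agent.P263B14

/-- the character sum over a finite group of an additive map to `𝔽₂` which is not zero -/
theorem sum_sg_hom {L : Type} [AddCommGroup L] [Fintype L] (f : L → ZMod 2)
    (hf : ∀ a b, f (a + b) = f a + f b) {a₀ : L} (h : f a₀ ≠ 0) : ∑ a, sg (f a) = 0 := by
  have h1 : ∑ a, sg (f (a + a₀)) = ∑ a, sg (f a) :=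
    Equiv.sum_comp (Equiv.addRight a₀) fun a => sg (f a)
  have h2 : sg (f a₀) = -1 := if_neg h
  simp only [hf, sg_add, h2, mul_neg, mul_one, Finset.sum_neg_distrib] at h1
  linarith

theorem sum_sg_count {V : Type} [Fintype V] (φ : V → ZMod 2) :
    ∑ x, sg (φ x) = (Nat.card V : ℤ) - 2 * (Nat.card {x // φ x = 1} : ℤ) := by
  classical
  have h1 : ∀ s : ZMod 2, sg s = 1 - 2 * (if s = 1 then 1 else 0) := by decide
  simp only [h1, Finset.sum_sub_distrib, ← Finset.mul_sum, Finset.sum_boole, Finset.sum_const,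
    Finset.card_univ, nsmul_eq_mul, mul_one, Nat.card_eq_fintype_card, Fintype.card_subtype]

/-- the Gauss sum is positive if `φ` vanishes on `L` and `L` contains its orthogonal -/
theorem gauss_pos {V : Type} [AddCommGroup V] [Fintype V] {B : V → V → ZMod 2} {φ : V → ZMod 2}
    (hq : ∀ x y, φ (x + y) = φ x + φ y + B x y) (hl : ∀ x y z, B (x + y) z = B x z + B y z)
    (L : AddSubgroup V) (hL : ∀ l ∈ L, φ l = 0) (hp : ∀ v, (∀ l ∈ L, B l v = 0) → v ∈ L) :
    0 < ∑ x, sg (φ x) := by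
  classical
  have hc : (0 : ℤ) < Fintype.card L := by exact_mod_cast Fintype.card_pos
  have h1 : ∀ l : L, ∑ x, sg (φ x) = ∑ x, sg (φ x) * sg (B l x) := fun l => by
    rw [← Equiv.sum_comp (Equiv.addLeft (l : V)) fun x => sg (φ x)]
    refine Finset.sum_congr rfl fun x _ => ?_
    show sg (φ (l + x)) = _
    rw [hq, hL l l.2, zero_add, sg_add]
  have h2 : (Fintype.card L : ℤ) * ∑ x, sg (φ x) = ∑ x, sg (φ x) * ∑ l : L, sg (B l x) := by
    rw [← nsmul_eq_mul, ← Finset.card_univ, ← Finset.sum_const,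
      Finset.sum_congr rfl fun l _ => h1 l, Finset.sum_comm]
    exact Finset.sum_congr rfl fun x _ => (Finset.mul_sum _ _ _).symm
  have h3 : ∀ x, (∀ l ∈ L, B l x = 0) →
      sg (φ x) * ∑ l : L, sg (B l x) = Fintype.card L := fun x hx => by
    rw [hL x (hp x hx), Finset.sum_congr rfl fun (l : L) _ => congrArg sg (hx l l.2)]
    simp [sg]
  have h4 : ∀ x, 0 ≤ sg (φ x) * ∑ l : L, sg (B l x) := fun x => by
    by_cases hx : ∀ l ∈ L, B l x = 0
    · rw [h3 x hx]
      exact hc.le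
    · push Not at hx
      obtain ⟨l, hl1, hl2⟩ := hx
      rw [sum_sg_hom (fun l : L => B l x) (fun a b => hl a b x) (a₀ := ⟨l, hl1⟩) hl2, mul_zero]
  have h5 : ∀ l ∈ L, B l 0 = 0 := fun l hl1 => by
    have h6 := hq l 0
    rw [add_zero, hL l hl1, hL 0 L.zero_mem, zero_add, zero_add] at h6
    exact h6.symm
  have h7 : 0 < ∑ x, sg (φ x) * ∑ l : L, sg (B l x) :=
    Finset.sum_pos' (fun x _ => h4 x) ⟨0, Finset.mem_univ _, by rw [h3 0 h5]; exact hc⟩
  rw [← h2] at h7
  exact (mul_pos_iff_of_pos_left hc).1 h7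

/-- the product of the two Gauss sums is positive -/
theorem gauss_mul_pos {V V' : Type} [AddCommGroup V] [Fintype V] [AddCommGroup V'] [Fintype V']
    {B : V → V → ZMod 2} {φ : V → ZMod 2} {B' : V' → V' → ZMod 2}
    {φ' : V' → ZMod 2} (hq : ∀ x y, φ (x + y) = φ x + φ y + B x y)
    (hl : ∀ x y z, B (x + y) z = B x z + B y z)
    (hq' : ∀ x y, φ' (x + y) = φ' x + φ' y + B' x y)
    (hl' : ∀ x y z, B' (x + y) z = B' x z + B' y z) (L : AddSubgroup (V × V'))
    (hL : ∀ l ∈ L, φ l.1 = φ' l.2)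
    (hp : ∀ x x', (∀ l ∈ L, B l.1 x = B' l.2 x') → (x, x') ∈ L) :
    0 < (∑ x, sg (φ x)) * ∑ x, sg (φ' x) := by
  have k : ∀ a b : ZMod 2, a + b = 0 → a = b := by decide
  have h := gauss_pos (V := V × V') (B := fun x y => B x.1 y.1 + B' x.2 y.2)
    (φ := fun x => φ x.1 + φ' x.2)
    (fun x y => by rw [Prod.fst_add, Prod.snd_add, hq, hq']; ring)
    (fun x y z => by rw [Prod.fst_add, Prod.snd_add, hl, hl']; ring) L
    (fun l h => by rw [hL l h]; exact z2_add _) fun v h => hp v.1 v.2 fun l h' => k _ _ (h l h')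
  simpa only [sg_add, Fintype.sum_prod_type, ← Finset.sum_mul_sum] using h

/-- **The majority values agree.** `L ⊆ V × V'` is a subgroup on which `φ x = φ' x'` and which
contains its orthogonal. -/
theorem majority_iff {V V' : Type} [AddCommGroup V] [Finite V] [AddCommGroup V'] [Finite V']
    {B : V → V → ZMod 2} {φ : V → ZMod 2} {B' : V' → V' → ZMod 2}
    {φ' : V' → ZMod 2} (hq : ∀ x y, φ (x + y) = φ x + φ y + B x y)
    (hl : ∀ x y z, B (x + y) z = B x z + B y z)
    (hq' : ∀ x y, φ' (x + y) = φ' x + φ' y + B' x y)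
    (hl' : ∀ x y z, B' (x + y) z = B' x z + B' y z) (L : AddSubgroup (V × V'))
    (hL : ∀ l ∈ L, φ l.1 = φ' l.2)
    (hp : ∀ x x', (∀ l ∈ L, B l.1 x = B' l.2 x') → (x, x') ∈ L) :
    Nat.card V < 2 * Nat.card {x : V // φ x = 1} ↔
      Nat.card V' < 2 * Nat.card {x : V' // φ' x = 1} := by
  have := Fintype.ofFinite V
  have := Fintype.ofFinite V'
  have h := gauss_mul_pos hq hl hq' hl' L hL hp
  rw [sum_sg_count, sum_sg_count] at h
  rcases mul_pos_iff.1 h with ⟨h1, h2⟩ | ⟨h1, h2⟩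
  · exact iff_of_false (by omega) (by omega)
  · exact iff_of_true (by omega) (by omega)

/-- **A Lagrangian relation forces the same Arf invariant.** `L ⊆ V × V'` is a subgroup on which
`φ x = φ' x'` and which contains its orthogonal. -/
theorem arf_eq_of_rel {V V' : Type} [AddCommGroup V] [Module (ZMod 2) V] [AddCommGroup V']
    [Module (ZMod 2) V'] {B : V → V → ZMod 2} {φ : V → ZMod 2} {B' : V' → V' → ZMod 2}
    {φ' : V' → ZMod 2} (hq : ∀ x y, φ (x + y) = φ x + φ y + B x y)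
    (hl : ∀ x y z, B (x + y) z = B x z + B y z)
    (hq' : ∀ x y, φ' (x + y) = φ' x + φ' y + B' x y)
    (hl' : ∀ x y z, B' (x + y) z = B' x z + B' y z) (L : AddSubgroup (V × V'))
    (hL : ∀ l ∈ L, φ l.1 = φ' l.2)
    (hp : ∀ v : V × V', (∀ l ∈ L, B l.1 v.1 = B' l.2 v.2) → v ∈ L) {r r' : ℕ}
    {e : Module.Basis (Fin r ⊕ Fin r) (ZMod 2) V} {e' : Module.Basis (Fin r' ⊕ Fin r') (ZMod 2) V'}
    (he : IsSymplectic B e) (he' : IsSymplectic B' e') : arf φ e = arf φ' e' := by
  have s := symp_of_isSymplectic he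
  have s' := symp_of_isSymplectic he'
  have f := finite_of_symp (symm_of_quad hq) hl s
  have f' := finite_of_symp (symm_of_quad hq') hl' s'
  have := Fintype.ofFinite V
  have := Fintype.ofFinite V'
  have k : ∀ a b : ZMod 2, a + b = 0 → a = b := by decide
  have h := gauss_pos (V := V × V') (B := fun x y => B x.1 y.1 + B' x.2 y.2)
    (φ := fun x => φ x.1 + φ' x.2)
    (fun x y => by rw [Prod.fst_add, Prod.snd_add, hq, hq']; ring)
    (fun x y z => by rw [Prod.fst_add, Prod.snd_add, hl, hl']; ring) L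
    (fun l h => by rw [hL l h]; exact z2_add _) fun v h => hp v fun l h' => k _ _ (h l h')
  simp only [sg_add, Fintype.sum_prod_type, ← Finset.sum_mul_sum] at h
  rw [sum_sg hq hl s, sum_sg hq' hl' s'] at h
  have h2 : (0 : ℤ) < 2 ^ r * 2 ^ r' := by positivity
  show ∑ i, φ (e (.inl i)) * φ (e (.inr i)) = ∑ i, φ' (e' (.inl i)) * φ' (e' (.inr i))
  generalize ∑ i, φ (e (.inl i)) * φ (e (.inr i)) = a at h ⊢
  generalize ∑ i, φ' (e' (.inl i)) * φ' (e' (.inr i)) = a' at h ⊢
  rw [mul_mul_mul_comm, mul_pos_iff_of_pos_left h2] at h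
  revert a a'
  decide

/-- the same with `L` the image of a group `W` under two additive maps -/
theorem arf_eq_of_maps {V V' W : Type} [AddCommGroup V] [Module (ZMod 2) V] [AddCommGroup V']
    [Module (ZMod 2) V'] [AddCommGroup W] {B : V → V → ZMod 2} {φ : V → ZMod 2}
    {B' : V' → V' → ZMod 2} {φ' : V' → ZMod 2} (hq : ∀ x y, φ (x + y) = φ x + φ y + B x y)
    (hl : ∀ x y z, B (x + y) z = B x z + B y z)
    (hq' : ∀ x y, φ' (x + y) = φ' x + φ' y + B' x y)
    (hl' : ∀ x y z, B' (x + y) z = B' x z + B' y z) (a : W →+ V) (a' : W →+ V')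
    (hL : ∀ w, φ (a w) = φ' (a' w))
    (hp : ∀ x x', (∀ w, B (a w) x = B' (a' w) x') → ∃ w, a w = x ∧ a' w = x') {r r' : ℕ}
    {e : Module.Basis (Fin r ⊕ Fin r) (ZMod 2) V} {e' : Module.Basis (Fin r' ⊕ Fin r') (ZMod 2) V'}
    (he : IsSymplectic B e) (he' : IsSymplectic B' e') : arf φ e = arf φ' e' := by
  refine arf_eq_of_rel hq hl hq' hl' (a.prod a').range ?_ (fun v h => ?_) he he'
  · rintro _ ⟨w, rfl⟩
    exact hL w
  · obtain ⟨w, h1, h2⟩ := hp v.1 v.2 fun w => h _ ⟨w, rfl⟩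
    exact ⟨w, Prod.ext h1 h2⟩

end Vale.Agent.P263C56
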