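import Vale.Agent.P263C56.Gauss
import Vale.Agent.P263C25.Rows

/-!
# P263C: the row `GAUSS`
-/

namespace Vale.Agent.P263C56

theorem gauss : P263C25.GAUSS := by
  intro V₀ V₁ Y _ _ _ _ _ φ₀ φ₁ B₀ B₁ r₀ r₁ hq hq' hl hl' hL hp
  refine majority_iff hq hl hq' hl' (r₀.prod r₁).range ?_ fun x x' h => ?_
  · rintro _ ⟨w, rfl⟩
    exact hL w
  · obtain ⟨w, h1, h2⟩ := hp x x' fun w => h _ ⟨w, rfl⟩
    exact ⟨w, Prod.ext h1 h2⟩

end Vale.Agent.P263C56
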